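import Vale.Agent.P284.H395.StkL
import Vale.Agent.P284.H650.MixCB
import Mathlib.LinearAlgebra.Matrix.Polynomial
import Mathlib.Analysis.Matrix.Order

/-!
# P284 (helper988), project D, E5: the coefficient of `τ ^ s` in `det (A + τ W)`
-/

open scoped ComplexConjugate ComplexOrder
open Matrix Finset Polynomial

noncomputable section

namespace Vale.Agent.P284.H988.D

open Vale.Agent.P284.H395 (cf cf_spec)
open Vale.Agent.P284.H650 (MD MD_const mdL mdL_apply rk1 MD_rk1_all)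

variable {m : ℕ}

/-- the coefficient of `τ ^ s` in `det (A + τ W)` -/
def coD (s : ℕ) (A W : Matrix (Fin m) (Fin m) ℂ) : ℂ :=
  ∑ j : Fin (m + 1), (cf m s j : ℂ) * (A + (((j : ℕ) : ℝ) : ℂ) • W).det

/-- coefficient extraction -/
lemma cf_poly (s : ℕ) (p : ℂ[X]) (hp : p.natDegree ≤ m) :
    ∑ j : Fin (m + 1), (cf m s j : ℂ) * p.eval (((j : ℕ) : ℝ) : ℂ) = p.coeff s := by
  have h1 : ∀ j : Fin (m + 1), (cf m s j : ℂ) * p.eval (((j : ℕ) : ℝ) : ℂ) =
      ∑ k ∈ range (m + 1), p.coeff k * ((cf m s j * ((j : ℕ) : ℝ) ^ k : ℝ) : ℂ) := by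
    intro j
    rw [Polynomial.eval_eq_sum_range' (Nat.lt_succ_of_le hp), Finset.mul_sum]
    refine Finset.sum_congr rfl fun k _ => ?_
    push_cast
    ring
  rw [Finset.sum_congr rfl fun j _ => h1 j, Finset.sum_comm]
  have h2 : ∀ k ∈ range (m + 1), ∑ j : Fin (m + 1), p.coeff k *
      ((cf m s j * ((j : ℕ) : ℝ) ^ k : ℝ) : ℂ) = if k = s then p.coeff k else 0 := by
    intro k hk
    rw [← Finset.mul_sum, ← Complex.ofReal_sum, cf_spec m s (Nat.le_of_lt_succ (mem_range.1 hk))]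
    split_ifs <;> simp
  rw [Finset.sum_congr rfl h2, Finset.sum_ite_eq' (range (m + 1)) s]
  split_ifs with h
  · rfl
  · rw [mem_range, not_lt] at h
    exact (Polynomial.coeff_eq_zero_of_natDegree_lt (by omega)).symm

/-- the polynomial `det (A + τ W)` -/
def pD (A W : Matrix (Fin m) (Fin m) ℂ) : ℂ[X] :=
  ((X : ℂ[X]) • W.map C + A.map C).det

lemma pD_eval (A W : Matrix (Fin m) (Fin m) ℂ) (x : ℂ) :
    (pD A W).eval x = (A + x • W).det := by
  rw [pD, ← Polynomial.coe_evalRingHom, RingHom.map_det]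
  congr 1
  ext i j
  simp [RingHom.mapMatrix_apply]
  ring

lemma pD_deg (A W : Matrix (Fin m) (Fin m) ℂ) : (pD A W).natDegree ≤ m := by
  have h := natDegree_det_X_add_C_le W A
  rwa [Fintype.card_fin] at h

theorem coD_eq_coeff (s : ℕ) (A W : Matrix (Fin m) (Fin m) ℂ) :
    coD s A W = (pD A W).coeff s := by
  rw [← cf_poly s (pD A W) (pD_deg A W)]
  exact Finset.sum_congr rfl fun j _ => by rw [pD_eval]

/-- rows of `A` for `i ∈ S`, rows of `W` otherwise -/
def pw (S : Finset (Fin m)) (A W : Matrix (Fin m) (Fin m) ℂ) : Matrix (Fin m) (Fin m) ℂ :=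
  Matrix.of fun i j => if i ∈ S then A i j else W i j

lemma det_smul_rows (c : Fin m → ℂ) (M : Matrix (Fin m) (Fin m) ℂ) :
    (Matrix.of fun i j => c i * M i j).det = (∏ i, c i) * M.det := by
  have h := (detRowAlternating (n := Fin m) (R := ℂ)).toMultilinearMap.map_smul_univ c M
  exact h

lemma det_add_rows (A B : Matrix (Fin m) (Fin m) ℂ) :
    (A + B).det = ∑ S : Finset (Fin m), (pw S A B).det := by
  have h := (detRowAlternating (n := Fin m) (R := ℂ)).toMultilinearMap.map_add_univ A B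
  refine h.trans (Finset.sum_congr rfl fun S _ => ?_)
  have h2 : (Finset.piecewise S (fun i => A i) (fun i => B i) : Fin m → Fin m → ℂ) = pw S A B := by
    funext i j
    by_cases hi : i ∈ S <;> simp [pw, hi]
  exact congrArg (fun v : Fin m → Fin m → ℂ => Matrix.det v) h2

lemma pw_smul_right (S : Finset (Fin m)) (A W : Matrix (Fin m) (Fin m) ℂ) (x : ℂ) :
    (pw S A (x • W)).det = x ^ Sᶜ.card * (pw S A W).det := by
  have h1 : pw S A (x • W) = Matrix.of fun i j => (if i ∈ S then (1 : ℂ) else x) * pw S A W i j := by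
    ext i j
    by_cases hi : i ∈ S <;> simp [pw, hi]
  rw [h1, det_smul_rows]
  congr 1
  rw [Finset.prod_ite, Finset.prod_const_one, one_mul, Finset.prod_const]
  congr 2
  ext i
  simp

lemma pw_smul_left (S : Finset (Fin m)) (A W : Matrix (Fin m) (Fin m) ℂ) (x : ℂ) :
    (pw S (x • A) W).det = x ^ S.card * (pw S A W).det := by
  have h1 : pw S (x • A) W = Matrix.of fun i j => (if i ∈ S then x else (1 : ℂ)) * pw S A W i j := by
    ext i j
    by_cases hi : i ∈ S <;> simp [pw, hi]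
  rw [h1, det_smul_rows]
  congr 1
  rw [Finset.prod_ite, Finset.prod_const_one, mul_one, Finset.prod_const]
  congr 2
  ext i
  simp

theorem coD_eq_sum (s : ℕ) (A W : Matrix (Fin m) (Fin m) ℂ) :
    coD s A W = ∑ S : Finset (Fin m), if Sᶜ.card = s then (pw S A W).det else 0 := by
  have h1 : ∀ j : Fin (m + 1), (cf m s j : ℂ) * (A + (((j : ℕ) : ℝ) : ℂ) • W).det =
      ∑ S : Finset (Fin m), ((cf m s j * ((j : ℕ) : ℝ) ^ Sᶜ.card : ℝ) : ℂ) *
        (pw S A W).det := by
    intro j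
    rw [det_add_rows, Finset.mul_sum]
    refine Finset.sum_congr rfl fun S _ => ?_
    rw [pw_smul_right]
    push_cast
    ring
  rw [coD, Finset.sum_congr rfl fun j _ => h1 j, Finset.sum_comm]
  refine Finset.sum_congr rfl fun S _ => ?_
  rw [← Finset.sum_mul, ← Complex.ofReal_sum, cf_spec m s (by
    have := Finset.card_le_univ (Sᶜ); rwa [Fintype.card_fin] at this)]
  split_ifs <;> simp

/-- homogeneity in `A` -/
theorem coD_smul {s : ℕ} (c : ℂ) (A W : Matrix (Fin m) (Fin m) ℂ) :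
    coD s (c • A) W = c ^ (m - s) * coD s A W := by
  rw [coD_eq_sum, coD_eq_sum, Finset.mul_sum]
  refine Finset.sum_congr rfl fun S _ => ?_
  split_ifs with h
  · rw [pw_smul_left]
    congr 2
    have h7 := Finset.card_compl_add_card S
    rw [Fintype.card_fin] at h7
    omega
  · simp

/-- homogeneity in `W` -/
theorem coD_smul_right {s : ℕ} (c : ℂ) (A W : Matrix (Fin m) (Fin m) ℂ) :
    coD s A (c • W) = c ^ s * coD s A W := by
  rw [coD_eq_sum, coD_eq_sum, Finset.mul_sum]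
  refine Finset.sum_congr rfl fun S _ => ?_
  split_ifs with h
  · rw [pw_smul_right, h]
  · simp

/-- change of coordinates -/
theorem coD_congr (s : ℕ) (A W P Q : Matrix (Fin m) (Fin m) ℂ) :
    coD s (P * A * Q) (P * W * Q) = P.det * Q.det * coD s A W := by
  rw [coD, coD, Finset.mul_sum]
  refine Finset.sum_congr rfl fun j _ => ?_
  have h : P * A * Q + (((j : ℕ) : ℝ) : ℂ) • (P * W * Q) =
      P * (A + (((j : ℕ) : ℝ) : ℂ) • W) * Q := by
    rw [Matrix.mul_add, Matrix.add_mul, Matrix.mul_smul, Matrix.smul_mul]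
  rw [h, Matrix.det_mul, Matrix.det_mul]
  ring

/-! ### Positivity -/

variable {ι : Type*} [Fintype ι]

/-- `∑ x_k b̄_k ᵗb_k` -/
def gs (x : ι → ℝ) (b : ι → Fin m → ℂ) : Matrix (Fin m) (Fin m) ℂ :=
  ∑ k, (x k : ℂ) • rk1 (fun a => conj (b k a)) (b k)

theorem det_gs (x : ι → ℝ) (b : ι → Fin m → ℂ) :
    (m.factorial : ℂ) * (gs x b).det =
      ((∑ f : Fin m → ι, (∏ i, x (f i)) * ‖(Matrix.of fun i => b (f i)).det‖ ^ 2 : ℝ) : ℂ) := by
  classical
  rw [← MD_const, ← mdL_apply]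
  have h0 : (fun _ : Fin m => gs x b) = fun _ : Fin m =>
      ∑ k : ι, (x k : ℂ) • rk1 (fun a => conj (b k a)) (b k) := rfl
  rw [h0, MultilinearMap.map_sum]
  push_cast
  refine Finset.sum_congr rfl fun f _ => ?_
  rw [MultilinearMap.map_smul_univ (mdL m) (fun i => (x (f i) : ℂ))
    (fun i => rk1 (fun a => conj (b (f i) a)) (b (f i))), mdL_apply, smul_eq_mul]
  congr 1
  rw [MD_rk1_all (fun i a => conj (b (f i) a)) (fun i => b (f i))]
  have h1 : (Matrix.of fun k l => b (f k) ⬝ᵥ (fun a => conj (b (f l) a))) =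
      (Matrix.of fun i => b (f i)) * (Matrix.of fun i => b (f i))ᴴ := by
    ext k l
    simp [Matrix.mul_apply, dotProduct, Matrix.conjTranspose_apply]
  rw [h1, Matrix.det_mul, Matrix.det_conjTranspose, ← Complex.ofReal_pow,
    ← Complex.normSq_eq_norm_sq, ← Complex.mul_conj]
  rfl

section
open scoped MatrixOrder

theorem exists_conjTranspose_mul {k : ℕ} {A : Matrix (Fin k) (Fin k) ℂ} (hA : A.PosSemidef) :
    ∃ B : Matrix (Fin k) (Fin k) ℂ, A = Bᴴ * B := by
  obtain ⟨B, hB⟩ := CStarAlgebra.nonneg_iff_eq_star_mul_self.mp hA.nonneg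
  exact ⟨B, hB⟩

end

/-- a positive semidefinite matrix is a Gram sum -/
theorem exists_gs {A : Matrix (Fin m) (Fin m) ℂ} (hA : A.PosSemidef) :
    ∃ b : Fin m → Fin m → ℂ, A = gs (fun _ => 1) b := by
  obtain ⟨B, hB⟩ := exists_conjTranspose_mul hA
  refine ⟨fun k => B k, ?_⟩
  rw [hB]
  ext i j
  simp [gs, Matrix.mul_apply, rk1, Matrix.sum_apply]

theorem coD_gs (s : ℕ) (y : ι → ℝ) (t : ι → ℕ) (b : ι → Fin m → ℂ) (ht : ∀ k, t k ≤ 1)
    {A W : Matrix (Fin m) (Fin m) ℂ} (hA : A = gs (fun k => if t k = 0 then y k else 0) b)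
    (hW : W = gs (fun k => if t k = 0 then 0 else y k) b) :
    (m.factorial : ℂ) * coD s A W =
      ((∑ f : Fin m → ι, if ∑ i, t (f i) = s then
        (∏ i, y (f i)) * ‖(Matrix.of fun i => b (f i)).det‖ ^ 2 else 0 : ℝ) : ℂ) := by
  have h1 : ∀ x : ℝ, A + (x : ℂ) • W = gs (fun k => y k * x ^ t k) b := by
    intro x
    rw [hA, hW, gs, gs, gs, Finset.smul_sum, ← Finset.sum_add_distrib]
    refine Finset.sum_congr rfl fun k _ => ?_
    rw [smul_smul, ← add_smul]
    congr 1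
    have := ht k
    by_cases hk : t k = 0
    · simp [hk]
    · have hk1 : t k = 1 := by omega
      simp [hk1, mul_comm]
  have h2 : ∀ j : Fin (m + 1), (m.factorial : ℂ) * ((cf m s j : ℂ) *
      (A + (((j : ℕ) : ℝ) : ℂ) • W).det) = ∑ f : Fin m → ι,
        ((cf m s j * ((j : ℕ) : ℝ) ^ (∑ i, t (f i)) : ℝ) : ℂ) *
          (((∏ i, y (f i)) * ‖(Matrix.of fun i => b (f i)).det‖ ^ 2 : ℝ) : ℂ) := by
    intro j
    rw [h1, mul_left_comm, det_gs]
    push_cast
    rw [Finset.mul_sum]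
    refine Finset.sum_congr rfl fun f _ => ?_
    rw [Finset.prod_mul_distrib, Finset.prod_pow_eq_pow_sum]
    ring
  rw [coD, Finset.mul_sum, Finset.sum_congr rfl fun j _ => h2 j, Finset.sum_comm,
    Complex.ofReal_sum]
  refine Finset.sum_congr rfl fun f _ => ?_
  rw [← Finset.sum_mul, ← Complex.ofReal_sum, cf_spec m s (by
    calc ∑ i, t (f i) ≤ ∑ _i : Fin m, 1 := Finset.sum_le_sum fun i _ => ht _
      _ = m := by simp)]
  split_ifs <;> simp

lemma gs_sum3 (α β γ : ℝ) (a d c : Fin m → Fin m → ℂ) :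
    gs (Sum.elim (fun _ => α) (Sum.elim (fun _ => β) (fun _ => γ)) : Fin m ⊕ Fin m ⊕ Fin m → ℝ)
      (Sum.elim a (Sum.elim d c)) =
      (α : ℂ) • gs (fun _ => 1) a + ((β : ℂ) • gs (fun _ => 1) d + (γ : ℂ) • gs (fun _ => 1) c) := by
  rw [gs, Fintype.sum_sum_type, Fintype.sum_sum_type]
  simp [gs, Finset.smul_sum]

/-- the general positivity statement -/
theorem coD_main (s : ℕ) {A D W : Matrix (Fin m) (Fin m) ℂ} (hA : A.PosSemidef)
    (hD : D.PosSemidef) (hW : W.PosSemidef) :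
    ∃ p q : ℝ, coD s A W = p ∧ coD s (A + D) W = q ∧ 0 ≤ p ∧ p ≤ q := by
  obtain ⟨a, ha⟩ := exists_gs hA
  obtain ⟨d, hd⟩ := exists_gs hD
  obtain ⟨c, hc⟩ := exists_gs hW
  have hm : (0 : ℝ) < m.factorial := by exact_mod_cast m.factorial_pos
  have hm' : (m.factorial : ℂ) ≠ 0 := by exact_mod_cast m.factorial_ne_zero
  set t : Fin m ⊕ Fin m ⊕ Fin m → ℕ := Sum.elim (fun _ => 0) (Sum.elim (fun _ => 0) (fun _ => 1))
    with ht
  have ht1 : ∀ k, t k ≤ 1 := by rintro (k | k | k) <;> simp [ht]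
  have key : ∀ β : ℝ, (m.factorial : ℂ) * coD s (A + (β : ℂ) • D) W =
      ((∑ f : Fin m → (Fin m ⊕ Fin m ⊕ Fin m), if ∑ i, t (f i) = s then
        (∏ i, (Sum.elim (fun _ => 1) (Sum.elim (fun _ => β) (fun _ => 1)) :
          Fin m ⊕ Fin m ⊕ Fin m → ℝ) (f i)) *
            ‖(Matrix.of fun i => (Sum.elim a (Sum.elim d c) :
              Fin m ⊕ Fin m ⊕ Fin m → Fin m → ℂ) (f i)).det‖ ^ 2 else 0 : ℝ) : ℂ) := by
    intro β
    refine coD_gs s _ t _ ht1 ?_ ?_
    · have h1 : (fun k => if t k = 0 then (Sum.elim (fun _ => 1) (Sum.elim (fun _ => β)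
          (fun _ => 1)) : Fin m ⊕ Fin m ⊕ Fin m → ℝ) k else 0) =
          Sum.elim (fun _ => 1) (Sum.elim (fun _ => β) (fun _ => 0)) := by
        funext k
        rcases k with k | k | k <;> simp [ht]
      rw [h1, gs_sum3, ← ha, ← hd]
      simp
    · have h1 : (fun k => if t k = 0 then 0 else (Sum.elim (fun _ => 1) (Sum.elim (fun _ => β)
          (fun _ => 1)) : Fin m ⊕ Fin m ⊕ Fin m → ℝ) k) =
          Sum.elim (fun _ => 0) (Sum.elim (fun _ => 0) (fun _ => 1)) := by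
        funext k
        rcases k with k | k | k <;> simp [ht]
      rw [h1, gs_sum3, ← hc]
      simp
  have h0 := key 0
  have h1 := key 1
  rw [Complex.ofReal_zero, zero_smul, add_zero] at h0
  rw [Complex.ofReal_one, one_smul] at h1
  have e : ∀ (z : ℂ) (r : ℝ), (m.factorial : ℂ) * z = r → z = ((r / m.factorial : ℝ) : ℂ) := by
    intro z r h
    rw [Complex.ofReal_div, eq_div_iff (by exact_mod_cast hm.ne'), mul_comm]
    exact_mod_cast h
  refine ⟨_, _, e _ _ h0, e _ _ h1, ?_, ?_⟩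
  · refine div_nonneg (Finset.sum_nonneg fun f _ => ?_) hm.le
    split_ifs
    · refine mul_nonneg (Finset.prod_nonneg fun i _ => ?_) (by positivity)
      rcases f i with k | k | k <;> simp
    · exact le_rfl
  · refine div_le_div_of_nonneg_right (Finset.sum_le_sum fun f _ => ?_) hm.le
    split_ifs
    · refine mul_le_mul_of_nonneg_right (Finset.prod_le_prod (fun i _ => ?_) fun i _ => ?_)
        (by positivity)
      · rcases f i with k | k | k <;> simp
      · rcases f i with k | k | k <;> simp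
    · exact le_rfl

theorem coD_nonneg (s : ℕ) {A W : Matrix (Fin m) (Fin m) ℂ} (hA : A.PosSemidef)
    (hW : W.PosSemidef) : 0 ≤ coD s A W := by
  obtain ⟨p, q, hp, -, h0, -⟩ := coD_main s hA hA hW
  rw [hp]
  exact_mod_cast h0

theorem coD_mono (s : ℕ) {A B W : Matrix (Fin m) (Fin m) ℂ} (hA : A.PosSemidef)
    (hB : (B - A).PosSemidef) (hW : W.PosSemidef) : coD s A W ≤ coD s B W := by
  obtain ⟨p, q, hp, hq, -, h0⟩ := coD_main s hA hB hW
  rw [add_sub_cancel] at hq
  rw [hp, hq]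
  exact_mod_cast h0

theorem coD_nonneg_re (s : ℕ) {A W : Matrix (Fin m) (Fin m) ℂ} (hA : A.PosSemidef)
    (hW : W.PosSemidef) : 0 ≤ (coD s A W).re := (Complex.le_def.1 (coD_nonneg s hA hW)).1

theorem coD_mono_re (s : ℕ) {A B W : Matrix (Fin m) (Fin m) ℂ} (hA : A.PosSemidef)
    (hB : (B - A).PosSemidef) (hW : W.PosSemidef) : (coD s A W).re ≤ (coD s B W).re :=
  (Complex.le_def.1 (coD_mono s hA hB hW)).1

end Vale.Agent.P284.H988.D
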