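import Vale.Agent.P284.H988.D.Rank
import Vale.Agent.P284.H661.D.Defs

/-!
# P284 (helper988), project D, module E5

`Σ_j coD (n - R + 1) (K_j) (hatM w) ≥ R det w c^R (det Γ)^((R-1)/R) |det A|^(2/R)` for
`K_j ≥ c Σ_b e_b e_bᴴ`, `e_b = (g_b, A_{bj})`, `Γ` the Gram matrix of the `g_b` for `w⁻¹`.
-/

open scoped ComplexConjugate ComplexOrder
open Matrix Finset

noncomputable section

namespace Vale.Agent.P284.H988.D

open Vale.Agent.P284.H224.D (hatM)
open Vale.Agent.P284.H661.D (cfd)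

variable {n R : ℕ}

/-- the arithmetic-geometric inequality -/
lemma amgm_psd {M : Matrix (Fin R) (Fin R) ℂ} (hM : M.PosSemidef) (hR : 1 ≤ R) :
    (R : ℝ) * M.det.re ^ (1 / (R : ℝ)) ≤ M.trace.re := by
  have hR0 : (0 : ℝ) < R := by exact_mod_cast hR
  have h1 : M.det.re = ∏ i, hM.1.eigenvalues i := by
    rw [hM.1.det_eq_prod_eigenvalues]
    have : (∏ i, ((hM.1.eigenvalues i : ℝ) : ℂ)) = ((∏ i, hM.1.eigenvalues i : ℝ) : ℂ) := by
      push_cast; rfl
    exact (congrArg Complex.re this).trans (Complex.ofReal_re _)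
  have h2 : M.trace.re = ∑ i, hM.1.eigenvalues i := by
    rw [hM.1.trace_eq_sum_eigenvalues]
    have : (∑ i, ((hM.1.eigenvalues i : ℝ) : ℂ)) = ((∑ i, hM.1.eigenvalues i : ℝ) : ℂ) := by
      push_cast; rfl
    exact (congrArg Complex.re this).trans (Complex.ofReal_re _)
  have h3 := Real.geom_mean_le_arith_mean_weighted univ (fun _ : Fin R => 1 / (R : ℝ))
    (fun i => hM.1.eigenvalues i) (fun _ _ => by positivity) (by
      rw [Finset.sum_const, Finset.card_univ, Fintype.card_fin, nsmul_eq_mul]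
      field_simp) fun i _ => hM.eigenvalues_nonneg i
  rw [Real.finsetProd_rpow _ _ fun i _ => hM.eigenvalues_nonneg i, ← h1, ← Finset.mul_sum,
    ← h2] at h3
  calc (R : ℝ) * M.det.re ^ (1 / (R : ℝ)) ≤ R * (1 / R * M.trace.re) :=
        mul_le_mul_of_nonneg_left h3 hR0.le
    _ = M.trace.re := by field_simp

lemma adj_psd {M : Matrix (Fin R) (Fin R) ℂ} (hM : M.PosSemidef) : M.adjugate.PosSemidef := by
  obtain ⟨B, hB⟩ := exists_conjTranspose_mul hM
  have h : M.adjugate = B.adjugate * B.adjugateᴴ := by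
    rw [hB, Matrix.adjugate_mul_distrib, Matrix.adjugate_conjTranspose]
  rw [h]
  exact posSemidef_self_mul_conjTranspose _

lemma Gam_psd {w : Matrix (Fin n) (Fin n) ℂ} (hw : w.PosDef) (g : Fin R → Fin n → ℂ) :
    (Gam w g).PosSemidef := hw.inv.posSemidef.conjTranspose_mul_mul_same (colM g)

/-- **E5** -/
theorem e5_coD {w : Matrix (Fin n) (Fin n) ℂ} (hw : w.PosDef) (hR : 1 ≤ R) (hRn : R ≤ n)
    (g : Fin R → Fin n → ℂ) (A : Fin R → Fin R → ℂ) {c : ℝ} (hc : 0 ≤ c)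
    (K : Fin R → Matrix (Fin (n + 1)) (Fin (n + 1)) ℂ)
    (hK : ∀ j, (K j - (c : ℂ) • ∑ b, vecMulVec (Fin.snoc (g b) (A b j) : Fin (n + 1) → ℂ)
      (star (Fin.snoc (g b) (A b j) : Fin (n + 1) → ℂ))).PosSemidef) :
    w.det.re * c ^ R * ((R : ℝ) *
      ((Gam w g).det.re ^ (R - 1) * ‖(Matrix.of A).det‖ ^ 2) ^ (1 / (R : ℝ))) ≤
      ∑ j, (coD (n - R + 1) (K j) (hatM w)).re := by
  set Y := (Gam w g).adjugate with hY
  set T := (Matrix.of A)ᵀ * Y * (Matrix.of A)ᵀᴴ with hT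
  have hG := Gam_psd hw g
  have hYp : Y.PosSemidef := adj_psd hG
  have hTp : T.PosSemidef := hYp.mul_mul_conjTranspose_same _
  have hwd : 0 < w.det := hw.det_pos
  have hwr : w.det = (w.det.re : ℂ) := by
    apply Complex.ext
    · simp
    · simpa using (Complex.lt_def.1 hwd).2.symm
  have hGr : (Gam w g).det = ((Gam w g).det.re : ℂ) := by
    have h0 : 0 ≤ (Gam w g).det := hG.det_nonneg
    apply Complex.ext
    · simp
    · simpa using (Complex.le_def.1 h0).2.symm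
  have hTd : T.det.re = (Gam w g).det.re ^ (R - 1) * ‖(Matrix.of A).det‖ ^ 2 := by
    have e1 : T.det = (((Gam w g).det.re ^ (R - 1) * ‖(Matrix.of A).det‖ ^ 2 : ℝ) : ℂ) := by
      generalize (Gam w g).det.re = γ at hGr ⊢
      rw [hT, Matrix.det_mul, Matrix.det_mul, Matrix.det_conjTranspose, Matrix.det_transpose, hY,
        Matrix.det_adjugate, Fintype.card_fin, hGr]
      push_cast
      rw [← Complex.ofReal_pow ‖_‖, ← Complex.normSq_eq_norm_sq, ← Complex.mul_conj]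
      change _ * _ * conj _ = _
      ring
    rw [e1, Complex.ofReal_re]
  have hmono : ∀ j, (coD (n - R + 1) (K0 g (fun b => A b j) c) (hatM w)).re ≤
      (coD (n - R + 1) (K j) (hatM w)).re := fun j =>
    coD_mono_re _ (K0_psd g _ hc) (hK j) (hatM_psd hw.posSemidef)
  refine le_trans ?_ (Finset.sum_le_sum fun j _ => hmono j)
  have hsum : ∑ j, (coD (n - R + 1) (K0 g (fun b => A b j) c) (hatM w)).re =
      w.det.re * c ^ R * T.trace.re := by
    have e1 : ∀ j, (coD (n - R + 1) (K0 g (fun b => A b j) c) (hatM w)).re =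
        w.det.re * c ^ R * (T j j).re := by
      intro j
      rw [coD_K0 hw hR hRn g _ hc, hwr, ← Complex.ofReal_pow, ← Complex.ofReal_mul,
        Complex.re_ofReal_mul, Complex.ofReal_re]
      congr 2
    rw [Finset.sum_congr rfl fun j _ => e1 j, ← Finset.mul_sum, Matrix.trace, Complex.re_sum]
    rfl
  rw [hsum, ← hTd]
  refine mul_le_mul_of_nonneg_left (amgm_psd hTp hR) ?_
  have := (Complex.lt_def.1 hwd).1
  simp only [Complex.zero_re] at this
  positivity

theorem cfd_eq {N : ℕ} (s : ℕ) (A B : Matrix (Fin N) (Fin N) ℂ) :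
    cfd s A B = (coD s A B).re := by
  rw [cfd, coD, Complex.re_sum]
  exact Finset.sum_congr rfl fun l _ => (Complex.re_ofReal_mul _ _).symm

/-- **E5**, in the letters of `H661.D`. -/
theorem e5 {w : Matrix (Fin n) (Fin n) ℂ} (hw : w.PosDef) (hR : 1 ≤ R) (hRn : R ≤ n)
    (g : Fin R → Fin n → ℂ) (A : Fin R → Fin R → ℂ) {c : ℝ} (hc : 0 ≤ c)
    (K : Fin R → Matrix (Fin (n + 1)) (Fin (n + 1)) ℂ)
    (hK : ∀ j, (K j - (c : ℂ) • ∑ b, vecMulVec (Fin.snoc (g b) (A b j) : Fin (n + 1) → ℂ)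
      (star (Fin.snoc (g b) (A b j) : Fin (n + 1) → ℂ))).PosSemidef) :
    (R : ℝ) * w.det.re * c ^ R * (Gam w g).det.re ^ (((R : ℝ) - 1) / R) *
      ‖(Matrix.of A).det‖ ^ (2 / (R : ℝ)) ≤ ∑ j, cfd (n - R + 1) (K j) (hatM w) := by
  have h := e5_coD hw hR hRn g A hc K hK
  have hG0 : 0 ≤ (Gam w g).det.re := by
    simpa using (Complex.le_def.1 (Gam_psd hw g).det_nonneg).1
  have h1 : ((Gam w g).det.re ^ (R - 1) * ‖(Matrix.of A).det‖ ^ 2) ^ (1 / (R : ℝ)) =
      (Gam w g).det.re ^ (((R : ℝ) - 1) / R) * ‖(Matrix.of A).det‖ ^ (2 / (R : ℝ)) := by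
    rw [Real.mul_rpow (by positivity) (by positivity), ← Real.rpow_natCast_mul hG0,
      ← Real.rpow_natCast_mul (norm_nonneg _), Nat.cast_sub hR]
    congr 2
    · push_cast; ring
    · push_cast; ring
  rw [h1] at h
  simp only [cfd_eq]
  calc _ = _ := by ring
    _ ≤ _ := h

end Vale.Agent.P284.H988.D
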