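import Vale.Agent.P284.H988.D.E5

/-!
# P284 (helper988), project D, module E5 in the letters of helper691
-/

open scoped ComplexConjugate ComplexOrder Matrix
open Finset

noncomputable section

namespace Vale.Agent.P284.H988.D

open Vale.Agent.P284.H224.D (hatM)
open Vale.Agent.P284.H661.D (cfd)
open Vale.Agent.P272.K (Cm)

/-- helper691's statement of E5 -/
def E5Stmt : Prop :=
  ∀ (n R : ℕ), 1 ≤ R → R ≤ n → ∀ (w : Matrix (Fin n) (Fin n) ℂ), w.PosDef →
    ∀ (c0 : ℝ), 0 ≤ c0 → ∀ (ex : Fin R → Fin n → ℂ) (ez : Matrix (Fin R) (Fin R) ℂ)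
      (K : Fin R → Matrix (Fin (n + 1)) (Fin (n + 1)) ℂ),
      (∀ j, (K j - (c0 : ℂ) • ∑ b, Matrix.vecMulVec (Fin.snoc (ex b) (ez b j) : Cm (n + 1))
        (star (Fin.snoc (ex b) (ez b j) : Cm (n + 1)))).PosSemidef) →
      R * w.det.re * c0 ^ R *
        ((Matrix.of fun b p => ex b p).map star * w⁻¹ * (Matrix.of fun p b => ex b p)).det.re ^
          (((R : ℝ) - 1) / R) * ‖ez.det‖ ^ (2 / (R : ℝ)) ≤
        ∑ j, cfd (n - R + 1) (K j) (hatM w)

theorem e5Stmt : E5Stmt := by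
  intro n R hR hRn w hw c0 hc0 ex ez K hK
  have h := e5 hw hR hRn ex ez hc0 K hK
  exact h

end Vale.Agent.P284.H988.D
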