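import Vale.Agent.P284.H988.D.Coef
import Vale.Agent.P284.H224.D.Defs
import Mathlib.LinearAlgebra.Matrix.SchurComplement
import Mathlib.Analysis.MeanInequalities

/-!
# P284 (helper988), project D, E5: the pointwise lower bound
-/

open scoped ComplexConjugate ComplexOrder
open Matrix Finset Polynomial

noncomputable section

namespace Vale.Agent.P284.H988.D

open Vale.Agent.P284.H224.D (hatM hatM_cc hatM_cl hatM_lc hatM_ll)

variable {n R : ℕ}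

/-! ### The Schur complement -/

/-- Woodbury: `(1 - c Gᴴ M⁻¹ G) (1 + (c/τ) Gᴴ w⁻¹ G) = 1` for `M = τ w + c G Gᴴ` -/
lemma woodbury {w M : Matrix (Fin n) (Fin n) ℂ} {G : Matrix (Fin n) (Fin R) ℂ} {c τ : ℂ}
    (hτ : τ ≠ 0) (hw : IsUnit w.det) (hM : IsUnit M.det) (hMe : M = τ • w + c • (G * Gᴴ)) :
    (1 - c • (Gᴴ * M⁻¹ * G)) * (1 + (c / τ) • (Gᴴ * w⁻¹ * G)) = 1 := by
  have h1 : c • (G * Gᴴ) = M - τ • w := by rw [hMe, add_sub_cancel_left]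
  have h2 : (c • (Gᴴ * M⁻¹ * G)) * ((c / τ) • (Gᴴ * w⁻¹ * G)) =
      (c / τ) • (Gᴴ * w⁻¹ * G) - c • (Gᴴ * M⁻¹ * G) := by
    have h3 : (c • (Gᴴ * M⁻¹ * G)) * ((c / τ) • (Gᴴ * w⁻¹ * G)) =
        (c / τ) • (Gᴴ * M⁻¹ * (c • (G * Gᴴ)) * w⁻¹ * G) := by
      simp only [Matrix.smul_mul, Matrix.mul_smul, smul_smul, Matrix.mul_assoc]
    rw [h3, h1, Matrix.mul_sub, Matrix.mul_assoc Gᴴ M⁻¹ M, Matrix.nonsing_inv_mul _ hM,
      Matrix.mul_one, Matrix.sub_mul, Matrix.sub_mul]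
    have h4 : Gᴴ * M⁻¹ * (τ • w) * w⁻¹ = τ • (Gᴴ * M⁻¹) := by
      rw [Matrix.mul_smul, Matrix.smul_mul, Matrix.mul_assoc (Gᴴ * M⁻¹), Matrix.mul_nonsing_inv _ hw,
        Matrix.mul_one]
    rw [h4, smul_sub, Matrix.smul_mul, smul_smul, div_mul_cancel₀ _ hτ]
  rw [Matrix.sub_mul, Matrix.one_mul, Matrix.mul_add, Matrix.mul_one, h2]
  abel

/-- the determinant of the bordered matrix -/
lemma det_bord_aux {w : Matrix (Fin n) (Fin n) ℂ} (hw : w.PosDef) (G : Matrix (Fin n) (Fin R) ℂ)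
    (a : Matrix (Fin 1) (Fin R) ℂ) {c τ : ℝ} (hc : 0 ≤ c) (hτ : 0 < τ) :
    (fromBlocks ((τ : ℂ) • w + (c : ℂ) • (G * Gᴴ)) ((c : ℂ) • (G * aᴴ)) ((c : ℂ) • (a * Gᴴ))
      ((c : ℂ) • (a * aᴴ))).det = (τ : ℂ) ^ n * w.det *
        ((c : ℂ) * (a * (1 + ((c / τ : ℝ) : ℂ) • (Gᴴ * w⁻¹ * G)).adjugate * aᴴ) 0 0) := by
  have hM : ((τ : ℂ) • w + (c : ℂ) • (G * Gᴴ)).PosDef := by
    refine PosDef.add_posSemidef (hw.smul (by exact_mod_cast hτ)) ?_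
    exact (Matrix.posSemidef_self_mul_conjTranspose G).smul (by exact_mod_cast hc)
  set M := (τ : ℂ) • w + (c : ℂ) • (G * Gᴴ) with hMd
  have hMu : IsUnit M.det := (Matrix.isUnit_iff_isUnit_det _).1 hM.isUnit
  have hwu : IsUnit w.det := (Matrix.isUnit_iff_isUnit_det _).1 hw.isUnit
  have hτ' : (τ : ℂ) ≠ 0 := by exact_mod_cast hτ.ne'
  have W := woodbury hτ' hwu hMu hMd
  set N : Matrix (Fin R) (Fin R) ℂ := 1 + ((c : ℂ) / (τ : ℂ)) • (Gᴴ * w⁻¹ * G) with hN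
  have hNc : (1 + ((c / τ : ℝ) : ℂ) • (Gᴴ * w⁻¹ * G)) = N := by
    rw [hN, Complex.ofReal_div]
  rw [hNc]
  have hdM : M.det = (τ : ℂ) ^ n * w.det * N.det := by
    have e1 : M = ((τ : ℂ) • w) * (1 + (((c : ℂ) / (τ : ℂ)) • (w⁻¹ * G)) * Gᴴ) := by
      rw [Matrix.mul_add, Matrix.mul_one, hMd]
      congr 1
      rw [Matrix.smul_mul, Matrix.smul_mul, Matrix.mul_smul, smul_smul, ← Matrix.mul_assoc,
        ← Matrix.mul_assoc, Matrix.mul_nonsing_inv _ hwu, Matrix.one_mul,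
        mul_div_cancel₀ _ hτ']
    rw [e1, Matrix.det_mul, Matrix.det_smul, Fintype.card_fin, Matrix.det_one_add_mul_comm]
    congr 2
    rw [hN, Matrix.mul_smul, Matrix.mul_assoc]
  have hadj : N.adjugate = N.det • (1 - (c : ℂ) • (Gᴴ * M⁻¹ * G)) := by
    have e1 : N.adjugate = (1 - (c : ℂ) • (Gᴴ * M⁻¹ * G)) * N * N.adjugate := by
      rw [W, Matrix.one_mul]
    rw [e1, Matrix.mul_assoc, Matrix.mul_adjugate, Matrix.mul_smul, Matrix.mul_one]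
  let _ : Invertible M := Matrix.invertibleOfIsUnitDet _ hMu
  rw [det_fromBlocks₁₁, hdM, hadj, Matrix.invOf_eq_nonsing_inv]
  have e2 : (c : ℂ) • (a * aᴴ) - (c : ℂ) • (a * Gᴴ) * M⁻¹ * (c : ℂ) • (G * aᴴ) =
      (c : ℂ) • (a * (1 - (c : ℂ) • (Gᴴ * M⁻¹ * G)) * aᴴ) := by
    rw [Matrix.mul_sub, Matrix.mul_one, Matrix.sub_mul, smul_sub]
    congr 1
    simp only [Matrix.smul_mul, Matrix.mul_smul, Matrix.mul_assoc]
  rw [e2, Matrix.det_fin_one, Matrix.mul_smul, Matrix.smul_mul, Matrix.smul_apply,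
    Matrix.smul_apply, smul_eq_mul, smul_eq_mul]
  ring

/-- the polynomial `a adj (τ + B) aᴴ` -/
def qD (a : Matrix (Fin 1) (Fin R) ℂ) (B : Matrix (Fin R) (Fin R) ℂ) : ℂ[X] :=
  (a.map C * ((X : ℂ[X]) • (1 : Matrix (Fin R) (Fin R) ℂ[X]) + B.map C).adjugate * aᴴ.map C) 0 0

lemma qD_eval (a : Matrix (Fin 1) (Fin R) ℂ) (B : Matrix (Fin R) (Fin R) ℂ) (x : ℂ) :
    (qD a B).eval x = (a * (x • (1 : Matrix (Fin R) (Fin R) ℂ) + B).adjugate * aᴴ) 0 0 := by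
  have h1 : ∀ {p q : ℕ} (M : Matrix (Fin p) (Fin q) ℂ), (M.map C).map (evalRingHom x) = M := by
    intro p q M
    ext i j
    simp
  have h2 : ((X : ℂ[X]) • (1 : Matrix (Fin R) (Fin R) ℂ[X]) + B.map C).map (evalRingHom x) =
      x • (1 : Matrix (Fin R) (Fin R) ℂ) + B := by
    ext i j
    by_cases hij : i = j
    · subst hij
      simp
    · simp [Matrix.one_apply_ne hij]
  have h3 := (evalRingHom x).map_adjugate
    ((X : ℂ[X]) • (1 : Matrix (Fin R) (Fin R) ℂ[X]) + B.map C)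
  rw [RingHom.mapMatrix_apply, RingHom.mapMatrix_apply, h2] at h3
  have h4 : (a.map C * ((X : ℂ[X]) • (1 : Matrix (Fin R) (Fin R) ℂ[X]) + B.map C).adjugate *
      aᴴ.map C).map (evalRingHom x) =
      a * (x • (1 : Matrix (Fin R) (Fin R) ℂ) + B).adjugate * aᴴ := by
    rw [Matrix.map_mul, Matrix.map_mul, h1, h1, h3]
  rw [← h4]
  rfl

/-- `c ∑ e_i e_iᴴ`, `e_i = (g_i, a_i)` -/
def K0 (g : Fin R → Fin n → ℂ) (a : Fin R → ℂ) (c : ℝ) : Matrix (Fin (n + 1)) (Fin (n + 1)) ℂ :=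
  (c : ℂ) • ∑ i, vecMulVec (Fin.snoc (g i) (a i) : Fin (n + 1) → ℂ)
    (star (Fin.snoc (g i) (a i) : Fin (n + 1) → ℂ))

/-- the matrix with columns `g_i` -/
def colM (g : Fin R → Fin n → ℂ) : Matrix (Fin n) (Fin R) ℂ := Matrix.of fun p i => g i p

/-- the Gram matrix -/
def Gam (w : Matrix (Fin n) (Fin n) ℂ) (g : Fin R → Fin n → ℂ) : Matrix (Fin R) (Fin R) ℂ :=
  (colM g)ᴴ * w⁻¹ * colM g

/-- the row of the last entries -/
def rowM (a : Fin R → ℂ) : Matrix (Fin 1) (Fin R) ℂ := Matrix.of fun _ i => a i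

lemma K0_psd (g : Fin R → Fin n → ℂ) (a : Fin R → ℂ) {c : ℝ} (hc : 0 ≤ c) :
    (K0 g a c).PosSemidef := by
  refine PosSemidef.smul (Matrix.posSemidef_sum _ fun i _ => ?_) (by exact_mod_cast hc)
  exact posSemidef_vecMulVec_self_star _

lemma hatM_psd {w : Matrix (Fin n) (Fin n) ℂ} (hw : w.PosSemidef) : (hatM w).PosSemidef := by
  obtain ⟨B, hB⟩ := exists_conjTranspose_mul hw
  have h : hatM w = (Matrix.of fun (i : Fin n) (k : Fin (n + 1)) =>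
      (Fin.snoc (B i) 0 : Fin (n + 1) → ℂ) k)ᴴ * (Matrix.of fun (i : Fin n) (k : Fin (n + 1)) =>
      (Fin.snoc (B i) 0 : Fin (n + 1) → ℂ) k) := by
    ext i k
    refine Fin.lastCases ?_ (fun i => ?_) i <;> refine Fin.lastCases ?_ (fun k => ?_) k <;>
      simp [hB, Matrix.mul_apply, Matrix.conjTranspose_apply]
  rw [h]
  exact posSemidef_conjTranspose_mul_self _

lemma K0_block (w : Matrix (Fin n) (Fin n) ℂ) (g : Fin R → Fin n → ℂ) (a : Fin R → ℂ) (c τ : ℝ) :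
    (K0 g a c + (τ : ℂ) • hatM w).submatrix finSumFinEquiv finSumFinEquiv =
      fromBlocks ((τ : ℂ) • w + (c : ℂ) • (colM g * (colM g)ᴴ))
        ((c : ℂ) • (colM g * (rowM a)ᴴ)) ((c : ℂ) • (rowM a * (colM g)ᴴ))
        ((c : ℂ) • (rowM a * (rowM a)ᴴ)) := by
  have e1 : ∀ i : Fin n, (finSumFinEquiv (Sum.inl i : Fin n ⊕ Fin 1)) = i.castSucc := fun i => rfl
  have e2 : ∀ i : Fin 1, (finSumFinEquiv (Sum.inr i : Fin n ⊕ Fin 1)) = Fin.last n := by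
    intro i
    rw [Subsingleton.elim i 0]
    rfl
  ext i k
  rcases i with i | i <;> rcases k with k | k <;>
    simp [e1, e2, K0, colM, rowM, Matrix.mul_apply, Matrix.sum_apply, vecMulVec_apply, add_comm]

theorem det_K0 {w : Matrix (Fin n) (Fin n) ℂ} (hw : w.PosDef) (hR : 1 ≤ R) (hRn : R ≤ n)
    (g : Fin R → Fin n → ℂ) (a : Fin R → ℂ) {c τ : ℝ} (hc : 0 ≤ c) (hτ : 0 < τ) :
    (K0 g a c + (τ : ℂ) • hatM w).det = w.det * c * (τ : ℂ) ^ (n - R + 1) *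
      (rowM a * ((τ : ℂ) • (1 : Matrix (Fin R) (Fin R) ℂ) + (c : ℂ) • Gam w g).adjugate *
        (rowM a)ᴴ) 0 0 := by
  have hτ' : (τ : ℂ) ≠ 0 := by exact_mod_cast hτ.ne'
  rw [← Matrix.det_submatrix_equiv_self finSumFinEquiv, K0_block, det_bord_aux hw _ _ hc hτ]
  have h1 : (1 + ((c / τ : ℝ) : ℂ) • ((colM g)ᴴ * w⁻¹ * colM g)) =
      ((τ : ℂ)⁻¹) • ((τ : ℂ) • (1 : Matrix (Fin R) (Fin R) ℂ) + (c : ℂ) • Gam w g) := by
    rw [smul_add, smul_smul, smul_smul, inv_mul_cancel₀ hτ', one_smul, Gam, Complex.ofReal_div,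
      div_eq_inv_mul]
  rw [h1, Matrix.adjugate_smul, Fintype.card_fin, Matrix.mul_smul, Matrix.smul_mul,
    Matrix.smul_apply, smul_eq_mul]
  have h2 : (τ : ℂ) ^ n = (τ : ℂ) ^ (n - R + 1) * (τ : ℂ) ^ (R - 1) := by
    rw [← pow_add]
    congr 1
    omega
  have h3 : (τ : ℂ) ^ (R - 1) * ((τ : ℂ)⁻¹) ^ (R - 1) = 1 := by
    rw [← mul_pow, mul_inv_cancel₀ hτ', one_pow]
  rw [h2]
  linear_combination (w.det * c * (τ : ℂ) ^ (n - R + 1) *
    (rowM a * ((τ : ℂ) • (1 : Matrix (Fin R) (Fin R) ℂ) + (c : ℂ) • Gam w g).adjugate *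
        (rowM a)ᴴ) 0 0) * h3

/-- **the coefficient for a matrix of rank `R`** -/
theorem coD_K0 {w : Matrix (Fin n) (Fin n) ℂ} (hw : w.PosDef) (hR : 1 ≤ R) (hRn : R ≤ n)
    (g : Fin R → Fin n → ℂ) (a : Fin R → ℂ) {c : ℝ} (hc : 0 ≤ c) :
    coD (n - R + 1) (K0 g a c) (hatM w) = w.det * (c : ℂ) ^ R *
      (rowM a * (Gam w g).adjugate * (rowM a)ᴴ) 0 0 := by
  have hPQ : pD (K0 g a c) (hatM w) =
      C (w.det * c) * X ^ (n - R + 1) * qD (rowM a) ((c : ℂ) • Gam w g) := by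
    refine Polynomial.eq_of_infinite_eval_eq _ _ ?_
    have hinf : (Set.Ioi (0 : ℝ)).Infinite := Set.Ioi_infinite 0
    refine (hinf.image (f := fun x : ℝ => (x : ℂ)) Complex.ofReal_injective.injOn).mono ?_
    rintro _ ⟨τ, hτ, rfl⟩
    rw [Set.mem_ofPred_eq, pD_eval, det_K0 hw hR hRn g a hc hτ]
    rw [Polynomial.eval_mul, Polynomial.eval_mul, Polynomial.eval_C, Polynomial.eval_pow,
      Polynomial.eval_X, qD_eval]
  rw [coD_eq_coeff, hPQ, mul_assoc, Polynomial.coeff_C_mul, mul_comm (X ^ _) (qD _ _),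
    Polynomial.coeff_mul_X_pow', if_pos le_rfl, Nat.sub_self, Polynomial.coeff_zero_eq_eval_zero,
    qD_eval, zero_smul, zero_add, Matrix.adjugate_smul, Fintype.card_fin, Matrix.mul_smul,
    Matrix.smul_mul, Matrix.smul_apply, smul_eq_mul]
  have h2 : (c : ℂ) ^ R = (c : ℂ) * (c : ℂ) ^ (R - 1) := by
    rw [← pow_succ']
    congr 1
    omega
  rw [h2]
  ring

end Vale.Agent.P284.H988.D
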